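import Mathlib

/-! P290Z, block BR, step E2: selection of a good circle. -/

open Set Filter Metric MeasureTheory
open scoped Topology

namespace Vale.Agent.P290Z.BR.E2

/-- some value is at most the mean -/
theorem exists_mul_le {α : Type*} [MeasureSpace α] {s : Set α} {f : α → ℝ} (h0 : volume s ≠ 0)
    (h1 : volume s ≠ ⊤) (hf : IntegrableOn f s) :
    ∃ x ∈ s, volume.real s * f x ≤ ∫ a in s, f a := by
  obtain ⟨x, hx, h⟩ := exists_le_setAverage h0 h1 hf
  refine ⟨x, hx, ?_⟩
  rw [setAverage_eq, smul_eq_mul] at h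
  have : 0 < volume.real s := ENNReal.toReal_pos h0 h1
  rwa [← le_div_iff₀' this, div_eq_inv_mul]

/-- a function and its derivative bounded by `g` are bounded by the integral of `g` -/
theorem line_bd {f g : ℝ → ℝ} {a b C : ℝ} (hab : a + 1 ≤ b) (hC : 0 ≤ C) (hg : Continuous g)
    (g0 : ∀ t, 0 ≤ g t) (hf : ∀ t, ∃ f', HasDerivAt f f' t ∧ |f'| ≤ C * g t)
    (hfg : ∀ t, f t ≤ g t) : ∀ t ∈ Icc a b, f t ≤ (1 + C) * ∫ s in a..b, g s := by
  have hd : Differentiable ℝ f := fun t => (hf t).choose_spec.1.differentiableAt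
  have key : ∀ u v, a ≤ u → u ≤ v → v ≤ b → |f v - f u| ≤ C * ∫ s in a..b, g s := by
    intro u v hu huv hv
    have h1 := norm_sub_le_integral_of_norm_deriv_le_of_le (f := f) (B := fun t => C * g t) huv
      hd.continuous.continuousOn hd.differentiableOn (Eventually.of_forall fun t _ => by
        obtain ⟨f', h1, h2⟩ := hf t
        rwa [h1.deriv]) ((continuous_const.mul hg).intervalIntegrable _ _)
    rw [intervalIntegral.integral_const_mul] at h1
    exact h1.trans (mul_le_mul_of_nonneg_left (intervalIntegral.integral_mono_interval hu huv hv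
      (Eventually.of_forall g0) (hg.intervalIntegrable _ _)) hC)
  have hle : a ≤ b := by linarith
  obtain ⟨s, hs, h⟩ := exists_mul_le (s := Icc a b) (f := g)
    (by rw [Real.volume_Icc]; exact (ENNReal.ofReal_pos.2 (by linarith)).ne')
    measure_Icc_lt_top.ne hg.integrableOn_Icc
  rw [Real.volume_real_Icc_of_le hle, integral_Icc_eq_integral_Ioc,
    ← intervalIntegral.integral_of_le hle] at h
  intro t ht
  have h2 : |f t - f s| ≤ C * ∫ s in a..b, g s := by
    rcases le_total s t with h3 | h3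
    · exact key s t hs.1 h3 ht.2
    · rw [abs_sub_comm]
      exact key t s ht.1 h3 hs.2
  have h3 := (abs_le.1 h2).2
  nlinarith [hfg s, g0 s]

/-- a circle on which the integral is small -/
theorem circle_sel {G : ℂ → ℝ} (hG : Continuous G) (g0 : ∀ z, 0 ≤ G z) :
    ∃ r ∈ Icc (1 / 2 : ℝ) (3 / 4), ∫ t in (-Real.pi)..Real.pi, G (circleMap 0 r t) ≤
      8 * ∫ z in closedBall (0 : ℂ) 1, G z := by
  let S : Set ℂ := {z | ‖z‖ ∈ Icc (1 / 2 : ℝ) (3 / 4)}
  have hS : MeasurableSet S := measurableSet_Icc.preimage measurable_norm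
  let F : ℝ × ℝ → ℝ := fun p => p.1 * G (circleMap 0 p.1 p.2)
  have hF : Continuous F := by
    refine continuous_fst.mul (hG.comp ?_)
    simp only [circleMap]
    fun_prop
  have hT : MeasurableSet (Icc (1 / 2 : ℝ) (3 / 4) ×ˢ (univ : Set ℝ)) :=
    measurableSet_Icc.prod MeasurableSet.univ
  have h1 : ∫ p in Icc (1 / 2 : ℝ) (3 / 4) ×ˢ Ioo (-Real.pi) Real.pi, F p = ∫ z in S, G z := by
    rw [← integral_indicator hS, ← Complex.integral_comp_polarCoord_symm,
      setIntegral_congr_fun polarCoord.open_target.measurableSet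
        (g := (Icc (1 / 2 : ℝ) (3 / 4) ×ˢ (univ : Set ℝ)).indicator F) ?_, setIntegral_indicator hT,
      polarCoord_target, prod_inter_prod, inter_univ, inter_eq_right.2]
    · exact fun r hr => lt_of_lt_of_le (by norm_num) hr.1
    · intro p hp
      have e : Complex.polarCoord.symm p = circleMap 0 p.1 p.2 := by
        rw [Complex.polarCoord_symm_apply, circleMap, zero_add, Complex.exp_mul_I,
          Complex.ofReal_cos, Complex.ofReal_sin]
      have e' : circleMap 0 p.1 p.2 ∈ S ↔ p.1 ∈ Icc (1 / 2 : ℝ) (3 / 4) := by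
        show ‖circleMap 0 p.1 p.2‖ ∈ Icc (1 / 2 : ℝ) (3 / 4) ↔ _
        rw [norm_circleMap_zero, abs_of_pos hp.1]
      by_cases h : p.1 ∈ Icc (1 / 2 : ℝ) (3 / 4)
      · simp only [e]
        rw [indicator_of_mem (e'.2 h),
          indicator_of_mem (mem_prod.2 ⟨h, mem_univ _⟩), smul_eq_mul]
      · simp only [e]
        rw [indicator_of_notMem (mt e'.1 h),
          indicator_of_notMem (fun h' => h (mem_prod.1 h').1), smul_zero]
  have hi : IntegrableOn F (Icc (1 / 2 : ℝ) (3 / 4) ×ˢ Ioo (-Real.pi) Real.pi)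
      (volume.prod volume) :=
    (hF.continuousOn.integrableOn_compact (isCompact_Icc.prod isCompact_Icc)).mono_set
      (prod_mono subset_rfl Ioo_subset_Icc_self)
  rw [Measure.volume_eq_prod, setIntegral_prod F hi] at h1
  have hi' : IntegrableOn (fun r => ∫ t in Ioo (-Real.pi) Real.pi, F (r, t))
      (Icc (1 / 2 : ℝ) (3 / 4)) := by
    rw [IntegrableOn, ← Measure.prod_restrict] at hi
    exact hi.integral_prod_left
  obtain ⟨r, hr, h⟩ := exists_mul_le (by rw [Real.volume_Icc]; norm_num) measure_Icc_lt_top.ne hi'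
  refine ⟨r, hr, ?_⟩
  have h2 : ∫ z in S, G z ≤ ∫ z in closedBall (0 : ℂ) 1, G z :=
    setIntegral_mono_set (hG.continuousOn.integrableOn_compact (isCompact_closedBall _ _))
      (Eventually.of_forall g0) (LE.le.eventuallyLE fun z hz =>
        mem_closedBall_zero_iff.2 (hz.2.trans (by norm_num)))
  have h3 : 0 ≤ ∫ t in Ioo (-Real.pi) Real.pi, G (circleMap 0 r t) :=
    integral_nonneg fun t => g0 _
  rw [h1, Real.volume_real_Icc_of_le (by norm_num)] at h
  simp only [F] at h
  rw [integral_const_mul] at h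
  rw [intervalIntegral.integral_of_le (by linarith [Real.pi_pos]), integral_Ioc_eq_integral_Ioo]
  nlinarith [hr.1]

/-- a function of Sobolev type is small on some circle -/
theorem circle_bd {B G : ℂ → ℝ} {C : ℝ} (hC : 0 ≤ C) (hG : Continuous G) (g0 : ∀ z, 0 ≤ G z)
    (hB : ∀ z : ℂ, ‖z‖ ≤ 1 → B z ≤ G z ∧
      ∃ L : ℂ →L[ℝ] ℝ, HasFDerivAt B L z ∧ ∀ v, |L v| ≤ C * ‖v‖ * G z) :
    ∃ r ∈ Icc (1 / 2 : ℝ) (3 / 4), ∀ z : ℂ, ‖z‖ = r →
      B z ≤ (1 + C) * (8 * ∫ z in closedBall (0 : ℂ) 1, G z) := by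
  obtain ⟨r, hr, h⟩ := circle_sel hG g0
  have hn : ∀ t, ‖circleMap 0 r t‖ ≤ 1 := fun t => by
    rw [norm_circleMap_zero, abs_of_nonneg (by linarith [hr.1])]
    linarith [hr.2]
  refine ⟨r, hr, fun z hz => ?_⟩
  have h1 := line_bd (f := fun t => B (circleMap 0 r t)) (g := fun t => G (circleMap 0 r t))
    (a := -Real.pi) (b := Real.pi) (by linarith [Real.pi_gt_three]) hC
    (hG.comp (continuous_circleMap 0 r)) (fun t => g0 _) (fun t => ?_) (fun t => (hB _ (hn t)).1)
    z.arg ⟨z.neg_pi_lt_arg.le, z.arg_le_pi⟩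
  · have e : circleMap 0 r z.arg = z := by
      rw [circleMap, zero_add, ← hz, Complex.norm_mul_exp_arg_mul_I]
    simp only [e] at h1
    exact h1.trans (mul_le_mul_of_nonneg_left h (by linarith))
  · obtain ⟨L, h1, h2⟩ := (hB _ (hn t)).2
    refine ⟨_, h1.comp_hasDerivAt t (hasDerivAt_circleMap 0 r t), (h2 _).trans ?_⟩
    rw [norm_mul, Complex.norm_I, mul_one]
    exact mul_le_mul_of_nonneg_right (mul_le_of_le_one_right hC (hn t)) (g0 _)

end Vale.Agent.P290Z.BR.E2
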